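import Vale.Agent.P263B71.Fib0
import Vale.Agent.P263B15.Rows

/-! The cover of the homotopy fibre of a map from a suspension. -/

open Topology Set Vale.Agent.P246.T Vale.Agent.P246.T.FM Vale.Agent.P263.AD.Freu
open Vale.Agent.P263B15

namespace Vale.Agent.P263B71

variable {A B Z : Type} [TopologicalSpace A] [TopologicalSpace B] [TopologicalSpace Z] {z : Z}
  {b : B} {V : Set B} {e : C(B, Z)}

/-- the map of the loop spaces -/
def Le (he : e b = z) : C(Lp b, Lp z) :=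
  ⟨fun w => ⟨⟨e.comp w.1.1, (congrArg e w.1.2).trans he⟩, (congrArg e w.2).trans he⟩,
    Continuous.subtype_mk (Continuous.subtype_mk
      ((ContinuousMap.continuous_postcomp e).comp (by fun_prop)) _) _⟩

theorem Le_apply (he : e b = z) (w : Lp b) (t : I) : (Le he w).1.1 t = e (w.1.1 t) := rfl

theorem pc_of {X Y : Type} [TopologicalSpace X] [TopologicalSpace Y] [PathConnectedSpace Y]
    {f : C(X, Y)} {g : C(Y, X)} (h : (g.comp f).Homotopic (ContinuousMap.id X)) :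
    PathConnectedSpace X := by
  obtain ⟨H⟩ := h
  have k : ∀ x, Joined (g (f x)) x := fun x => ⟨H.evalAt x⟩
  refine ⟨⟨g (Classical.arbitrary Y)⟩, fun x y => ((k x).symm.trans ?_).trans (k y)⟩
  exact ⟨(PathConnectedSpace.somePath (f x) (f y)).map g.continuous⟩

theorem pc_U [PathConnectedSpace (Lp z)] (he : e b = z) (c : Contr V b) (hb : b ∈ V) :
    IsPathConnected (U e z V) :=
  isPathConnected_iff_pathConnectedSpace.2 (pc_of (J_T he c hb))

/-- the inclusion of the fibre -/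
def J0 (he : e b = z) : C(Lp z, Fb e z) :=
  ⟨fun w => ⟨(b, w.1), he.trans (Eq.symm w.2)⟩, by fun_prop⟩

theorem J0_Le (he : e b = z) :
    ((J0 he).comp (Le he)).Homotopic (ContinuousMap.const _ (Fb.pt he)) := by
  let K : C(I × Lp b, PP z) := mkP
    (fun q : (I × Lp b) × I => e (q.1.2.1.1 (cl ((1 - (q.1.1 : ℝ)) * (q.2 : ℝ)))))
    (e.continuous.comp (continuous_pp (by fun_prop) (continuous_cl.comp (by fun_prop))))
    fun q => by
      rw [cl_of_nonpos (by simp)]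
      exact (congrArg e q.2.1.2).trans he
  have hK : ∀ q : I × Lp b, e (q.2.1.1 (cl ((1 - (q.1 : ℝ)) * ((1 : I) : ℝ)))) = ev z (K q) :=
    fun q => rfl
  refine homotopic_of (fun q => ⟨(_, K q), hK q⟩) (Continuous.subtype_mk (Continuous.prodMk
    (continuous_pp (by fun_prop) (continuous_cl.comp (by fun_prop))) K.continuous) _) ?_ ?_
  · intro w
    refine Subtype.ext (Prod.ext ?_ (pp_ext fun t => ?_))
    · change w.1.1 (cl ((1 - ((0 : I) : ℝ)) * ((1 : I) : ℝ))) = b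
      rw [cl_of_one_le (by simp)]
      exact w.2
    · change e (w.1.1 (cl ((1 - ((0 : I) : ℝ)) * (t : ℝ)))) = e (w.1.1 t)
      have : (1 - ((0 : I) : ℝ)) * (t : ℝ) = t := by simp
      rw [this, cl_coe]
  · intro w
    refine Subtype.ext (Prod.ext ?_ (pp_ext fun t => ?_))
    · change w.1.1 (cl ((1 - ((1 : I) : ℝ)) * ((1 : I) : ℝ))) = b
      rw [cl_of_nonpos (by simp)]
      exact w.1.2
    · change e (w.1.1 (cl ((1 - ((1 : I) : ℝ)) * (t : ℝ)))) = z
      rw [cl_of_nonpos (by simp)]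
      exact (congrArg e w.1.2).trans he

theorem J0_null (he : e b = z) {σ : C(Lp z, Lp b)}
    (hσ : ((Le he).comp σ).Homotopic (ContinuousMap.id _)) : (J0 he).Nullhomotopic := by
  refine ⟨Fb.pt he, ?_⟩
  have h1 := (ContinuousMap.Homotopic.refl (J0 he)).comp hσ
  have h2 := (J0_Le he).comp (ContinuousMap.Homotopic.refl σ)
  exact h1.symm.trans h2

theorem inc_null (he : e b = z) {σ : C(Lp z, Lp b)}
    (hσ : ((Le he).comp σ).Homotopic (ContinuousMap.id _)) (c : Contr V b) (hb : b ∈ V) :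
    (PR.inc (U e z V)).Nullhomotopic := by
  obtain ⟨x, hx⟩ := J0_null he hσ
  have h1 := (ContinuousMap.Homotopic.refl (PR.inc (U e z V))).comp (J_T he c hb)
  have h2 := hx.comp (ContinuousMap.Homotopic.refl (T he c))
  exact ⟨x, h1.symm.trans h2⟩

/-- the cover of the homotopy fibre -/
noncomputable def mvData {a₀ : A} (W : SuspData A B a₀ b) (he : e b = z)
    [PathConnectedSpace (Lp z)] {σ : C(Lp z, Lp b)}
    (hσ : ((Le he).comp σ).Homotopic (ContinuousMap.id _)) {l : C(Lp z, ↥(W.V₁ ∩ W.V₂))}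
    (hl : (l.comp ((Le he).comp (clut W.c₁ W.c₂))).Homotopic (ContinuousMap.id _)) :
    MVData (Fb e z) (Lp z) ↥(W.V₁ ∩ W.V₂) (kL z) where
  U₁ := U e z W.V₁
  U₂ := U e z W.V₂
  o₁ := isOpen_U W.o₁
  o₂ := isOpen_U W.o₂
  cov := cover_U W.cov
  p₁ := pc_U he W.c₁ W.m₁
  p₂ := pc_U he W.c₂ W.m₂
  n₁ := inc_null he hσ W.c₁ W.m₁
  n₂ := inc_null he hσ W.c₂ W.m₂
  T₁ := T he W.c₁
  T₂ := T he W.c₂
  s := S he W.V₁ W.c₂
  t := D he W.V₁ W.c₂
  st := S_D he W.c₂
  h₂ := (ContinuousMap.Homotopic.refl ContinuousMap.fst).comp (D_S (V₁ := W.V₁) he W.c₂)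
  inj n c hc h := by
    have h1 := hg_of_homotopic hl hc
    rw [push_id, push_comp] at h1
    refine h1.symm.trans (Hg.push_zero (Hg.trans (Hg.of_eq ?_) h) l)
    congr 2
    refine ContinuousMap.ext fun y => Subtype.ext (pp_ext fun t => ?_)
    exact (mu_kL he W.c₁ W.c₂ y t).symm

theorem repar {f κ : C(A, Lp z)} {ρ : C(I, I)} (h0 : ρ 0 = 0) (h1 : ρ 1 = 1)
    (h : ∀ a t, (f a).1.1 t = (κ a).1.1 (ρ t)) : f.Homotopic κ := by
  let K : C(I × A, PP z) := mkP (fun q : (I × A) × I =>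
      (κ q.1.2).1.1 (cl ((1 - (q.1.1 : ℝ)) * (ρ q.2 : ℝ) + q.1.1 * (q.2 : ℝ))))
    (continuous_pp (by fun_prop) (continuous_cl.comp (by fun_prop))) fun q => by
      rw [h0, cl_of_nonpos (by simp)]
      exact (κ q.2).1.2
  have hK : ∀ q, K q ∈ ev z ⁻¹' {z} := fun q => by
    change (κ q.2).1.1 (cl ((1 - (q.1 : ℝ)) * (ρ 1 : ℝ) + q.1 * ((1 : I) : ℝ))) = z
    rw [h1, cl_of_one_le (by simp)]
    exact (κ q.2).2
  refine homotopic_of (fun q => ⟨K q, hK q⟩) (Continuous.subtype_mk K.continuous _) ?_ ?_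
  · intro a
    refine Subtype.ext (pp_ext fun t => Eq.trans ?_ (h a t).symm)
    change (κ a).1.1 (cl ((1 - ((0 : I) : ℝ)) * (ρ t : ℝ) + ((0 : I) : ℝ) * (t : ℝ))) = _
    have : (1 - ((0 : I) : ℝ)) * (ρ t : ℝ) + ((0 : I) : ℝ) * (t : ℝ) = ρ t := by simp
    rw [this, cl_coe]
  · intro a
    refine Subtype.ext (pp_ext fun t => ?_)
    change (κ a).1.1 (cl ((1 - ((1 : I) : ℝ)) * (ρ t : ℝ) + ((1 : I) : ℝ) * (t : ℝ))) = _
    have : (1 - ((1 : I) : ℝ)) * (ρ t : ℝ) + ((1 : I) : ℝ) * (t : ℝ) = t := by simp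
    rw [this, cl_coe]

/-- row FIB -/
theorem fib : FIB := by
  intro A B Z _ _ _ a₀ b z W e κ σ ρ he h0 h1 hκ hσ hj hp
  have r := @ContinuousMap.Homotopic.refl
  have h2 : ((Le he).comp W.j).Homotopic κ := repar h0 h1 hj
  have h3 : κ.comp σ = ContinuousMap.id _ := ContinuousMap.ext hκ
  refine ⟨mvData W he (σ := W.j.comp σ) (h3 ▸ h2.comp (r σ)) (l := W.i.comp σ) ?_⟩
  have h4 : ((Le he).comp (clut W.c₁ W.c₂)).Homotopic (κ.comp W.r) :=
    ((r ((Le he).comp (clut W.c₁ W.c₂))).comp W.ir).symm.trans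
      ((((r (Le he)).comp W.cl).trans h2).comp (r W.r))
  exact (((r (W.i.comp σ)).comp h4).trans (((r W.i).comp hσ).comp (r W.r))).trans W.ir

end Vale.Agent.P263B71
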