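import Vale.Agent.P263B71.Kit
import Vale.Agent.P263B15.Defs

/-! The homotopy fibre of a map on a union of two contractible sets. -/

open Topology Set Vale.Agent.P246.T Vale.Agent.P246.T.FM Vale.Agent.P263.AD.Freu
open Vale.Agent.P263B15 (Lp Fb)

namespace Vale.Agent.P263B71

variable {B Z : Type} [TopologicalSpace B] [TopologicalSpace Z] {z : Z} {b : B}
  {V V₁ V₂ : Set B}

/-- the part over `V` -/
def U (e : C(B, Z)) (z : Z) (V : Set B) : Set (Fb e z) := {q | q.1.1 ∈ V}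

variable {e : C(B, Z)}

/-- the base point -/
def bs (V : Set B) : C(U e z V, V) := ⟨fun q => ⟨q.1.1.1, q.2⟩, by fun_prop⟩

/-- paths, with the tracks of their end points -/
def trT (e : C(B, Z)) (z : Z) (c : Contr V b) : Tr (U e z V) z where
  g := ⟨fun q => q.1.1.2, by fun_prop⟩
  h := e.comp (c.h.comp ((ContinuousMap.id I).prodMap (bs V)))
  eq q := (congrArg e (c.zero _)).trans q.1.2

theorem trT_h (c : Contr V b) (t : I) (q : U e z V) :
    (trT e z c).h (t, q) = e (c.h (t, bs V q)) := rfl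

theorem ev_trT (he : e b = z) (c : Contr V b) (q : U e z V) :
    ev z ((trT e z c).cat q) = z := by
  rw [Tr.ev_cat, trT_h, c.one, he]

/-- the loop which follows the path and then the track of the end point -/
noncomputable def T (he : e b = z) (c : Contr V b) : C(U e z V, Lp z) :=
  ⟨fun q => ⟨(trT e z c).cat q, ev_trT he c q⟩,
    Continuous.subtype_mk (trT e z c).cat.continuous _⟩

/-- the fibre over the base point -/
def J (he : e b = z) (hb : b ∈ V) : C(Lp z, U e z V) :=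
  ⟨fun w => ⟨⟨(b, w.1), he.trans (Eq.symm w.2)⟩, hb⟩, by fun_prop⟩

theorem T_J (he : e b = z) (c : Contr V b) (hb : b ∈ V) :
    ((T he c).comp (J he hb)).Homotopic (ContinuousMap.id _) := by
  refine homotopic_of (fun q => ⟨(trT e z c).str (q.1, J he hb q.2), ?_⟩) ?_ ?_ ?_
  · change ev z _ = z
    rw [Tr.str_end, trT_h]
    exact (congrArg e (c.base hb _)).trans he
  · exact Continuous.subtype_mk ((trT e z c).str.continuous.comp (by fun_prop)) _
  · intro w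
    exact Subtype.ext ((trT e z c).str_zero _)
  · intro w
    exact Subtype.ext ((trT e z c).str_one _)

theorem J_T (he : e b = z) (c : Contr V b) (hb : b ∈ V) :
    ((J he hb).comp (T he c)).Homotopic (ContinuousMap.id _) := by
  refine homotopic_of (fun q => ⟨⟨(c.h (cl (1 - (q.1 : ℝ)), bs V q.2), (trT e z c).str q),
    ((trT e z c).str_end _ _).symm⟩, c.mem _⟩) ?_ ?_ ?_
  · refine Continuous.subtype_mk (Continuous.subtype_mk (Continuous.prodMk ?_
      (trT e z c).str.continuous) _) _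
    exact c.h.continuous.comp ((continuous_cl.comp (by fun_prop)).prodMk (by fun_prop))
  · intro q
    refine Subtype.ext (Subtype.ext (Prod.ext ?_ ((trT e z c).str_zero _)))
    change c.h (cl (1 - ((0 : I) : ℝ)), _) = b
    rw [cl_of_one_le (by simp), c.one]
  · intro q
    refine Subtype.ext (Subtype.ext (Prod.ext ?_ ((trT e z c).str_one _)))
    change c.h (cl (1 - ((1 : I) : ℝ)), _) = q.1.1.1
    rw [cl_of_nonpos (by simp), c.zero]
    rfl

/-- loops, with the reversed tracks of the points of `V₁ ∩ V₂` -/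
noncomputable def trS (he : e b = z) (V₁ : Set B) (c : Contr V₂ b) :
    Tr (Lp z × ↥(V₁ ∩ V₂)) z where
  g := ⟨fun q => q.1.1, by fun_prop⟩
  h := ⟨fun q => e (c.h (cl (1 - (q.1 : ℝ)), ⟨q.2.2.1, q.2.2.2.2⟩)), e.continuous.comp
    (c.h.continuous.comp ((continuous_cl.comp (by fun_prop)).prodMk (by fun_prop)))⟩
  eq q := by
    change e (c.h (cl (1 - ((0 : I) : ℝ)), _)) = ev z q.1.1
    rw [cl_of_one_le (by simp), c.one, he]
    exact Eq.symm q.1.2

theorem trS_h (he : e b = z) (c : Contr V₂ b) (t : I) (q : Lp z × ↥(V₁ ∩ V₂)) :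
    (trS he V₁ c).h (t, q) = e (c.h (cl (1 - (t : ℝ)), ⟨q.2.1, q.2.2.2⟩)) := rfl

theorem ev_trS (he : e b = z) (c : Contr V₂ b) (q : Lp z × ↥(V₁ ∩ V₂)) :
    ev z ((trS he V₁ c).cat q) = e q.2.1 := by
  rw [Tr.ev_cat, trS_h, cl_of_nonpos (by simp), c.zero]

/-- the map `Ω × (V₁ ∩ V₂) → U₁ ∩ U₂` -/
noncomputable def S (he : e b = z) (V₁ : Set B) (c : Contr V₂ b) :
    C(Lp z × ↥(V₁ ∩ V₂), ↥(U e z V₁ ∩ U e z V₂)) :=
  ⟨fun q => ⟨⟨(q.2.1, (trS he V₁ c).cat q), (ev_trS he c q).symm⟩, q.2.2⟩,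
    Continuous.subtype_mk (Continuous.subtype_mk (Continuous.prodMk (by fun_prop)
      (trS he V₁ c).cat.continuous) _) _⟩

/-- the base point -/
def pE (e : C(B, Z)) (z : Z) (V₁ V₂ : Set B) : C(↥(U e z V₁ ∩ U e z V₂), ↥(V₁ ∩ V₂)) :=
  ⟨fun q => ⟨q.1.1.1, q.2⟩, by fun_prop⟩

theorem pE_S (he : e b = z) (c : Contr V₂ b) (q : Lp z × ↥(V₁ ∩ V₂)) :
    pE e z V₁ V₂ (S he V₁ c q) = q.2 := rfl

/-- the inverse of `S` -/
noncomputable def D (he : e b = z) (V₁ : Set B) (c : Contr V₂ b) :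
    C(↥(U e z V₁ ∩ U e z V₂), Lp z × ↥(V₁ ∩ V₂)) :=
  ((T he c).comp (sub inter_subset_right)).prodMk (pE e z V₁ V₂)

theorem S_D (he : e b = z) (c : Contr V₂ b) :
    ((S he V₁ c).comp (D he V₁ c)).Homotopic (ContinuousMap.id _) := by
  let i₂ := sub (inter_subset_right : U e z V₁ ∩ U e z V₂ ⊆ U e z V₂)
  refine homotopic_of (fun q => ⟨⟨(q.2.1.1.1, (trT e z c).can (q.1, i₂ q.2)),
    q.2.1.2.trans ((trT e z c).can_end (q.1, i₂ q.2)).symm⟩, q.2.2⟩) ?_ ?_ ?_
  · exact Continuous.subtype_mk (Continuous.subtype_mk (Continuous.prodMk (by fun_prop)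
      ((trT e z c).can.continuous.comp (by fun_prop))) _) _
  · intro q
    refine Subtype.ext (Subtype.ext (Prod.ext rfl (((trT e z c).can_zero _).trans ?_)))
    exact Tr.cat_congr (σ := trS he V₁ c) (a := D he V₁ c q) rfl fun t => rfl
  · intro q
    exact Subtype.ext (Subtype.ext (Prod.ext rfl ((trT e z c).can_one _)))

theorem cl_cl (t : I) : cl (1 - ((cl (1 - (t : ℝ)) : I) : ℝ)) = t := by
  rw [coe_cl (by linarith [t.2.2]) (by linarith [t.2.1]), sub_sub_cancel, cl_coe]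

theorem D_S (he : e b = z) (c : Contr V₂ b) :
    ((D he V₁ c).comp (S he V₁ c)).Homotopic (ContinuousMap.id _) := by
  refine homotopic_of (fun q => (⟨(trS he V₁ c).can q,
    ((trS he V₁ c).can_end _).trans q.2.1.2⟩, q.2.2)) ?_ ?_ ?_
  · exact (Continuous.subtype_mk (trS he V₁ c).can.continuous _).prodMk (by fun_prop)
  · intro q
    refine Prod.ext (Subtype.ext (((trS he V₁ c).can_zero _).trans ?_)) rfl
    refine Tr.cat_congr (σ := trT e z c) (a := sub inter_subset_right (S he V₁ c q)) rfl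
      fun t => ?_
    change e (c.h (cl (1 - ((cl (1 - (t : ℝ)) : I) : ℝ)), _)) = _
    rw [cl_cl]
    rfl
  · intro q
    exact Prod.ext (Subtype.ext ((trS he V₁ c).can_one _)) rfl

/-- the clutching action -/
noncomputable def mu (he : e b = z) (c₁ : Contr V₁ b) (c₂ : Contr V₂ b) :
    C(Lp z × ↥(V₁ ∩ V₂), Lp z) := ((T he c₁).comp (sub inter_subset_left)).comp (S he V₁ c₂)

theorem mu_apply (he : e b = z) (c₁ : Contr V₁ b) (c₂ : Contr V₂ b) (w : Lp z) (y : ↥(V₁ ∩ V₂))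
    (t : I) : (mu he c₁ c₂ (w, y)).1.1 t =
      if (t : ℝ) ≤ 1 / 4 then w.1.1 (cl (4 * (t : ℝ))) else
      if (t : ℝ) ≤ 1 / 2 then e (c₂.h (cl (2 - 4 * (t : ℝ)), ⟨y.1, y.2.2⟩))
      else e (c₁.h (cl (2 * (t : ℝ) - 1), ⟨y.1, y.2.1⟩)) := by
  have ht0 := t.2.1
  have ht1 := t.2.2
  change (trT e z c₁).ext (sub inter_subset_left (S he V₁ c₂ (w, y)), 2 * (t : ℝ) - 1) = _
  by_cases h : (t : ℝ) ≤ 1 / 2
  · rw [Tr.nonpos _ _ (by linarith), if_pos h]
    change (trS he V₁ c₂).ext ((w, y), 2 * ((cl (1 + (2 * (t : ℝ) - 1)) : I) : ℝ) - 1) = _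
    rw [coe_cl (by linarith) (by linarith)]
    split_ifs with h'
    · rw [Tr.nonpos _ _ (by linarith)]
      change w.1.1 _ = _
      congr 2
      ring
    · rw [Tr.nonneg _ _ (by linarith), trS_h, coe_cl (by linarith) (by linarith)]
      congr 4
      ring
  · rw [Tr.nonneg _ _ (by linarith), if_neg (by linarith), if_neg h]
    rfl

theorem mu_kL (he : e b = z) (c₁ : Contr V₁ b) (c₂ : Contr V₂ b) (y : ↥(V₁ ∩ V₂)) (t : I) :
    (mu he c₁ c₂ (kL z, y)).1.1 t = e ((clut c₁ c₂ y).1.1 t) := by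
  rw [mu_apply, clut_apply]
  by_cases h : (t : ℝ) ≤ 1 / 4
  · rw [if_pos h, if_pos (by linarith), cl_of_one_le (r := 2 - 4 * (t : ℝ)) (by linarith),
      c₂.one, he]
    rfl
  · rw [if_neg h]
    split_ifs <;> rfl

theorem mu_base_apply (he : e b = z) (c₁ : Contr V₁ b) (c₂ : Contr V₂ b) (hb : b ∈ V₁ ∩ V₂)
    (w : Lp z) (t : I) : (mu he c₁ c₂ (w, ⟨b, hb⟩)).1.1 t = w.1.1 (cl (4 * (t : ℝ))) := by
  rw [mu_apply]
  by_cases h : (t : ℝ) ≤ 1 / 4
  · rw [if_pos h]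
  · rw [if_neg h, cl_of_one_le (r := 4 * (t : ℝ)) (by linarith), c₁.base, c₂.base, he, ite_self]
    exact Eq.symm w.2

theorem mu_base (he : e b = z) (c₁ : Contr V₁ b) (c₂ : Contr V₂ b) (hb : b ∈ V₁ ∩ V₂) :
    ((mu he c₁ c₂).comp (⟨fun w => (w, ⟨b, hb⟩), by fun_prop⟩ :
      C(Lp z, Lp z × ↥(V₁ ∩ V₂)))).Homotopic (ContinuousMap.id _) := by
  let K : C(I × Lp z, PP z) := mkP
    (fun q : (I × Lp z) × I => q.1.2.1.1 (cl ((4 - 3 * (q.1.1 : ℝ)) * (q.2 : ℝ))))
    (continuous_pp (by fun_prop) (continuous_cl.comp (by fun_prop))) fun q => by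
      rw [cl_of_nonpos (by simp)]
      exact q.2.1.2
  have hK : ∀ q, K q ∈ ev z ⁻¹' {z} := fun q => by
    change q.2.1.1 (cl ((4 - 3 * (q.1 : ℝ)) * ((1 : I) : ℝ))) = z
    rw [cl_of_one_le (by have := q.1.2.2; simp; linarith)]
    exact q.2.2
  refine homotopic_of (fun q => ⟨K q, hK q⟩) (Continuous.subtype_mk K.continuous _) ?_ ?_
  · intro w
    refine Subtype.ext (pp_ext fun t => Eq.trans ?_ (mu_base_apply he c₁ c₂ hb w t).symm)
    change w.1.1 (cl ((4 - 3 * ((0 : I) : ℝ)) * (t : ℝ))) = _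
    simp
  · intro w
    refine Subtype.ext (pp_ext fun t => ?_)
    change w.1.1 (cl ((4 - 3 * ((1 : I) : ℝ)) * (t : ℝ))) = w.1.1 t
    have : (4 - 3 * ((1 : I) : ℝ)) * (t : ℝ) = t := by simp; ring
    rw [this, cl_coe]

theorem isOpen_U (h : IsOpen V) : IsOpen (U e z V) :=
  h.preimage (f := fun q : Fb e z => q.1.1) (by fun_prop)

theorem cover_U (h : V₁ ∪ V₂ = univ) : U e z V₁ ∪ U e z V₂ = univ :=
  eq_univ_of_forall fun q => (h.symm ▸ mem_univ q.1.1 : q.1.1 ∈ V₁ ∪ V₂)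

end Vale.Agent.P263B71
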