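import Vale.Agent.P263.AD.FreuPath

/-! Paths continued by tracks. -/

open Topology Set Vale.Agent.P246.T Vale.Agent.P246.T.FM Vale.Agent.P263.AD.Freu

namespace Vale.Agent.P263B71

variable {P A Z : Type} [TopologicalSpace P] [TopologicalSpace A] [TopologicalSpace Z] {z : Z}

/-- a family of paths `g` and a family of tracks `h` which start at their end points -/
structure Tr (P : Type) [TopologicalSpace P] (z : Z) where
  /-- the paths -/
  g : C(P, PP z)
  /-- the tracks -/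
  h : C(I × P, Z)
  eq : ∀ p, h (0, p) = ev z (g p)

/-- the path, continued by the track -/
noncomputable def Tr.ext (τ : Tr P z) (q : P × ℝ) : Z :=
  if q.2 ≤ 0 then (τ.g q.1).1 (cl (1 + q.2)) else τ.h (cl q.2, q.1)

theorem Tr.nonpos (τ : Tr P z) (p : P) {r : ℝ} (hr : r ≤ 0) :
    τ.ext (p, r) = (τ.g p).1 (cl (1 + r)) := if_pos hr

theorem Tr.nonneg (τ : Tr P z) (p : P) {r : ℝ} (hr : 0 ≤ r) : τ.ext (p, r) = τ.h (cl r, p) := by
  rcases hr.eq_or_lt with rfl | hr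
  · rw [τ.nonpos p le_rfl, cl_of_nonpos le_rfl, τ.eq, cl_of_one_le (by norm_num)]
    rfl
  · exact if_neg (not_le.2 hr)

theorem Tr.cont (τ : Tr P z) : Continuous τ.ext := by
  unfold Tr.ext
  refine Continuous.if_le ?_ ?_ continuous_snd continuous_const ?_
  · exact continuous_pp (τ.g.continuous.comp continuous_fst)
      (continuous_cl.comp (continuous_const.add continuous_snd))
  · exact τ.h.continuous.comp ((continuous_cl.comp continuous_snd).prodMk continuous_fst)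
  · rintro ⟨p, r⟩ h
    have h' : r = 0 := h
    subst h'
    change (τ.g p).1 (cl (1 + 0)) = τ.h (cl 0, p)
    rw [cl_of_nonpos le_rfl, τ.eq, cl_of_one_le (by norm_num)]
    rfl

theorem Tr.start (τ : Tr P z) (p : P) {r : ℝ} (hr : r ≤ -1) : τ.ext (p, r) = z := by
  rw [τ.nonpos p (by linarith), cl_of_nonpos (by linarith)]
  exact (τ.g p).2

/-- reparametrised families -/
noncomputable def Tr.rep (τ : Tr P z) (π : A → P) (hπ : Continuous π) (u : A × I → ℝ)
    (hu : Continuous u) (h0 : ∀ a, u (a, 0) ≤ -1) : C(A, PP z) :=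
  mkP (fun q : A × I => τ.ext (π q.1, u q))
    (τ.cont.comp ((hπ.comp continuous_fst).prodMk hu)) (fun a => τ.start _ (h0 a))

theorem Tr.rep_apply (τ : Tr P z) (π : A → P) (hπ : Continuous π) (u : A × I → ℝ)
    (hu : Continuous u) (h0 : ∀ a, u (a, 0) ≤ -1) (a : A) (t : I) :
    (τ.rep π hπ u hu h0 a).1 t = τ.ext (π a, u (a, t)) := rfl

/-- the concatenation -/
noncomputable def Tr.cat (τ : Tr P z) : C(P, PP z) :=
  τ.rep id continuous_id (fun q => 2 * (q.2 : ℝ) - 1) (by fun_prop) (fun _ => by simp)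

theorem Tr.cat_apply (τ : Tr P z) (p : P) (t : I) :
    (τ.cat p).1 t = τ.ext (p, 2 * (t : ℝ) - 1) := rfl

theorem Tr.ev_cat (τ : Tr P z) (p : P) : ev z (τ.cat p) = τ.h (1, p) := by
  change τ.ext (p, 2 * ((1 : I) : ℝ) - 1) = _
  rw [τ.nonneg p (by norm_num), cl_of_one_le (by norm_num)]

/-- the homotopy from the concatenation to the path -/
noncomputable def Tr.str (τ : Tr P z) : C(I × P, PP z) :=
  τ.rep Prod.snd continuous_snd (fun q => (2 - (q.1.1 : ℝ)) * (q.2 : ℝ) - 1) (by fun_prop)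
    (fun _ => by simp)

theorem Tr.str_end (τ : Tr P z) (a : I) (p : P) :
    ev z (τ.str (a, p)) = τ.h (cl (1 - (a : ℝ)), p) := by
  have : ev z (τ.str (a, p)) = τ.ext (p, (2 - (a : ℝ)) * ((1 : I) : ℝ) - 1) := rfl
  rw [this, τ.nonneg p (by have := a.2.2; simp; linarith)]
  congr 3
  simp; ring

theorem Tr.str_zero (τ : Tr P z) (p : P) : τ.str (0, p) = τ.cat p := by
  refine pp_ext fun t => ?_
  rw [Tr.cat_apply]
  change τ.ext (p, (2 - ((0 : I) : ℝ)) * (t : ℝ) - 1) = _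
  simp

theorem Tr.str_one (τ : Tr P z) (p : P) : τ.str (1, p) = τ.g p := by
  refine pp_ext fun t => ?_
  change τ.ext (p, (2 - ((1 : I) : ℝ)) * (t : ℝ) - 1) = _
  rw [τ.nonpos p (by have := t.2.2; simp; linarith)]
  have : 1 + ((2 - ((1 : I) : ℝ)) * (t : ℝ) - 1) = t := by simp; ring
  rw [this, cl_coe]

/-- the concatenation, continued by the reversed track -/
noncomputable def Tr.back (τ : Tr P z) : Tr P z where
  g := τ.cat
  h := ⟨fun q => τ.h (cl (1 - (q.1 : ℝ)), q.2), τ.h.continuous.comp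
    ((continuous_cl.comp (by fun_prop)).prodMk continuous_snd)⟩
  eq p := by
    rw [τ.ev_cat]
    change τ.h (cl (1 - ((0 : I) : ℝ)), p) = _
    rw [cl_of_one_le (by simp)]

/-- the homotopy from `(g * h) * h⁻¹` to `g` -/
noncomputable def Tr.can (τ : Tr P z) : C(I × P, PP z) :=
  τ.rep Prod.snd continuous_snd (fun q => (1 - (q.1.1 : ℝ)) *
      min (4 * (q.2 : ℝ) - 1) (2 - 2 * (q.2 : ℝ)) + q.1.1 * ((q.2 : ℝ) - 1)) (by fun_prop)
    (fun q => by
      have : min (4 * ((0 : I) : ℝ) - 1) (2 - 2 * ((0 : I) : ℝ)) = -1 := by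
        rw [min_eq_left] <;> norm_num
      simp only [this]
      simp)

theorem Tr.can_end (τ : Tr P z) (q : I × P) : ev z (τ.can q) = ev z (τ.g q.2) := by
  have h0 : (1 - (q.1 : ℝ)) * min (4 * ((1 : I) : ℝ) - 1) (2 - 2 * ((1 : I) : ℝ)) +
      q.1 * (((1 : I) : ℝ) - 1) = 0 := by
    have : min (4 * ((1 : I) : ℝ) - 1) (2 - 2 * ((1 : I) : ℝ)) = 0 := by
      rw [min_eq_right] <;> norm_num
    rw [this]
    simp
  change τ.ext (q.2, (1 - (q.1 : ℝ)) * min (4 * ((1 : I) : ℝ) - 1) (2 - 2 * ((1 : I) : ℝ)) +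
      q.1 * (((1 : I) : ℝ) - 1)) = _
  rw [h0, τ.nonneg _ le_rfl, cl_of_nonpos le_rfl, τ.eq]

theorem Tr.can_zero (τ : Tr P z) (p : P) : τ.can (0, p) = τ.back.cat p := by
  refine pp_ext fun t => ?_
  rw [Tr.cat_apply]
  change τ.ext (p, (1 - ((0 : I) : ℝ)) * min (4 * (t : ℝ) - 1) (2 - 2 * (t : ℝ)) +
      ((0 : I) : ℝ) * ((t : ℝ) - 1)) = _
  have h0 : (1 - ((0 : I) : ℝ)) * min (4 * (t : ℝ) - 1) (2 - 2 * (t : ℝ)) +
      ((0 : I) : ℝ) * ((t : ℝ) - 1) = min (4 * (t : ℝ) - 1) (2 - 2 * (t : ℝ)) := by simp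
  have ht0 := t.2.1
  have ht1 := t.2.2
  rw [h0]
  rcases le_total (t : ℝ) (1 / 2) with h | h
  · rw [min_eq_left (by linarith), τ.back.nonpos _ (by linarith)]
    change _ = (τ.cat p).1 _
    rw [Tr.cat_apply, coe_cl (by linarith) (by linarith)]
    congr 2
    ring
  · rw [min_eq_right (by linarith), τ.back.nonneg _ (by linarith), τ.nonneg _ (by linarith)]
    change _ = τ.h (cl (1 - ((cl (2 * (t : ℝ) - 1) : I) : ℝ)), p)
    rw [coe_cl (by linarith) (by linarith)]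
    congr 3
    ring

theorem Tr.can_one (τ : Tr P z) (p : P) : τ.can (1, p) = τ.g p := by
  refine pp_ext fun t => ?_
  change τ.ext (p, (1 - ((1 : I) : ℝ)) * min (4 * (t : ℝ) - 1) (2 - 2 * (t : ℝ)) +
      ((1 : I) : ℝ) * ((t : ℝ) - 1)) = _
  have h0 : (1 - ((1 : I) : ℝ)) * min (4 * (t : ℝ) - 1) (2 - 2 * (t : ℝ)) +
      ((1 : I) : ℝ) * ((t : ℝ) - 1) = (t : ℝ) - 1 := by simp
  rw [h0, τ.nonpos _ (by have := t.2.2; linarith)]
  have : 1 + ((t : ℝ) - 1) = t := by ring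
  rw [this, cl_coe]

theorem Tr.cat_congr {τ : Tr P z} {σ : Tr A z} {p : P} {a : A} (hg : τ.g p = σ.g a)
    (hh : ∀ t, τ.h (t, p) = σ.h (t, a)) : τ.cat p = σ.cat a := by
  refine pp_ext fun t => ?_
  rw [Tr.cat_apply, Tr.cat_apply]
  unfold Tr.ext
  simp only [hg, hh]

end Vale.Agent.P263B71
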